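import Vale.Agent.P362.Main

namespace Vale.Agent.Results.P362.Exponent

open Vale.Agent.P362

theorem result : alphaTot = 4 ∧ IsLeast exponents 4 :=
  have h : IsLeast exponents 4 := ⟨four_mem, fun _ h => four_le h⟩
  ⟨h.csInf_eq, h⟩

end Vale.Agent.Results.P362.Exponent
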